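import Mathlib

namespace Vale.Agent.P069

/-- The closed subspaces of finite codimension of `X`. -/
def Cof (X : Type) [NormedAddCommGroup X] [NormedSpace ℝ X] : Set (Submodule ℝ X) :=
  {F | IsClosed (F : Set X) ∧ FiniteDimensional ℝ (X ⧸ F)}

/-- `N` is a norm on `X` equivalent to the given one. -/
def IsEquivNorm {X : Type} [NormedAddCommGroup X] [NormedSpace ℝ X] (N : Seminorm ℝ X) : Prop :=
  ∃ a b : ℝ, 0 < a ∧ 0 < b ∧ ∀ x : X, a * ‖x‖ ≤ N x ∧ N x ≤ b * ‖x‖

/-- The modulus of asymptotic uniform convexity of `N`, computed in the extended reals. -/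
noncomputable def aucModulus {X : Type} [NormedAddCommGroup X] [NormedSpace ℝ X]
    (N : Seminorm ℝ X) (t : ℝ) : EReal :=
  ⨅ x ∈ {x : X | N x = 1}, ⨆ F ∈ Cof X, ⨅ y ∈ {y : X | y ∈ F ∧ N y = 1},
    ((N (x + t • y) - 1 : ℝ) : EReal)

/-- The modulus of asymptotic midpoint uniform convexity of `N`, in the extended reals. -/
noncomputable def amucModulus {X : Type} [NormedAddCommGroup X] [NormedSpace ℝ X]
    (N : Seminorm ℝ X) (t : ℝ) : EReal :=
  ⨅ x ∈ {x : X | N x = 1}, ⨆ F ∈ Cof X, ⨅ y ∈ {y : X | y ∈ F ∧ N y = 1},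
    ((max (N (x + t • y)) (N (x - t • y)) - 1 : ℝ) : EReal)

/-- `X` has an equivalent asymptotically uniformly convex norm. -/
def AUCRenormable (X : Type) [NormedAddCommGroup X] [NormedSpace ℝ X] : Prop :=
  ∃ N : Seminorm ℝ X, IsEquivNorm N ∧ ∀ t : ℝ, 0 < t → 0 < aucModulus N t

/-- `X` has an equivalent asymptotically midpoint uniformly convex norm. -/
def AMUCRenormable (X : Type) [NormedAddCommGroup X] [NormedSpace ℝ X] : Prop :=
  ∃ N : Seminorm ℝ X, IsEquivNorm N ∧ ∀ t : ℝ, 0 < t → 0 < amucModulus N t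

end Vale.Agent.P069
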